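import Vale.Agent.P322.Defs
import Vale.Agent.P322.Final

/-!
# P322: the Courtade-Kumar conjecture

For every `n`, every Boolean function `f` on the cube of dimension `n` and every crossover
probability `0 ≤ ε ≤ 1/2`: `I(f(X);Y) ≤ 1 - h₂(ε)`.
-/

namespace Vale.Agent.Results.P322.CourtadeKumar

open Vale.Agent.P322

/-- **The Courtade-Kumar conjecture.** -/
theorem result : ∀ (n : ℕ) (f : (Fin n → ℤˣ) → ℤˣ) (ε : ℝ), 0 ≤ ε → ε ≤ 1 / 2 →
    mutualInfo (joint ε f) ≤ 1 - h2 ε :=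
  fun n f _ h0 h1 => courtade_kumar h0 h1 n f

end Vale.Agent.Results.P322.CourtadeKumar
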