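import Vale.Agent.P322.Defs
import Vale.Agent.P322.HiFinal

/-!
# P322: the Courtade-Kumar inequality at low noise, for all Boolean functions
-/

namespace Vale.Agent.Results.P322.LowNoise

open Vale.Agent.P322

/-- For every noise level `0 ≤ ε ≤ 3/40`, every `n` and every Boolean function `f`,
`I(f(X);Y) ≤ 1 - h₂(ε)`. -/
theorem result : ∀ ε : ℝ, 0 ≤ ε → ε ≤ 3 / 40 → ∀ (n : ℕ) (f : (Fin n → ℤˣ) → ℤˣ),
    mutualInfo (joint ε f) ≤ 1 - h2 ε := by
  intro ε h0 h1 n f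
  rcases h0.eq_or_lt with h2 | h2
  · exact Ind.main_extreme (Or.inl h2.symm) n f
  obtain ⟨g, a1, a2, a3, a4, a5⟩ := Hi.exists_g_hi (ρ := 1 - 2 * ε) (by linarith) (by linarith)
  exact Ind.main_of_twoPoint h0 (by linarith) a1 a2 a3 a4 a5 n f

end Vale.Agent.Results.P322.LowNoise
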